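import Vale.Agent.P305.H607.Run

/-! A nearly maximum matching from one bipartite call. -/

set_option autoImplicit false
set_option linter.all false

namespace Vale.Agent.P305

open Function (update)
open L1

/-- From a program of the internal language, with calls of a black box, to a word RAM program. -/
theorem runs_of_L1 {Q : ∀ (n : ℕ) (G : SimpleGraph (Fin n)), G.Subgraph → Prop} {P : Prog} {CH CG : ∀ n : ℕ, SimpleGraph (Fin n) → Prop}
    {TH : ∀ n : ℕ, SimpleGraph (Fin n) → ℕ} (hP : Solves P CH TH)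
    {K : ℕ} (hK : 4 ≤ K) (q : Cmd) {cst : ℕ} (hq : q.ok K cst) (k1 k2 : ℕ)
    (Sz : ∀ n : ℕ, SimpleGraph (Fin n) → ∀ n' : ℕ, SimpleGraph (Fin n') → Prop)
    (TT A B : ∀ n : ℕ, SimpleGraph (Fin n) → ℕ)
    (hsz : ∀ (n : ℕ) (G : SimpleGraph (Fin n)), CG n G → ∀ (n' : ℕ) (H : SimpleGraph (Fin n')),
      CH n' H → Sz n G n' H →
      n' + H.edgeSet.ncard + 2 ≤ (n + G.edgeSet.ncard + 2) ^ k2 ∧ TH n' H ≤ TT n G)
    (hA : ∀ (n : ℕ) (G : SimpleGraph (Fin n)), CG n G → A n G ≤ (n + G.edgeSet.ncard + 2) ^ k1)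
    (hrun : ∀ (n : ℕ) (G : SimpleGraph (Fin n)), CG n G → ∀ L : AdjLists G,
      ∀ (R : List ℕ → (ℕ → ℕ) → ℕ → Prop) (τ : ℕ),
      (∀ (n' : ℕ) (H : SimpleGraph (Fin n')) (L' : AdjLists H), CH n' H → Sz n G n' H →
        ∃ (out : ℕ → ℕ) (t : ℕ) (M : H.Subgraph), R L'.encode out t ∧ t ≤ τ ∧
          IsMaximumMatching H M ∧ Represents out M) →
      ∃ (t : ℕ) (s : St) (M : G.Subgraph),
        Ex R ((n + G.edgeSet.ncard + 2) ^ k1) q (St.init L.encode) t s ∧
        t ≤ A n G + B n G * τ ∧ Q n G M ∧ Represents (s.a 3) M) :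
    ∃ (P' : Prog) (C k : ℕ), ∀ (n : ℕ) (G : SimpleGraph (Fin n)), CG n G → ∀ L : AdjLists G,
      ∃ (t : ℕ) (s : State) (M : G.Subgraph),
        Exec ((n + G.edgeSet.ncard + 2) ^ k) P' (State.init L.encode) t s ∧
        t ≤ C * (A n G + B n G * TT n G + n + G.edgeSet.ncard + 1) ∧
        Q n G M ∧ Represents s.mem M := by
  obtain ⟨kP, hkP⟩ := hP
  have hpoly : PolyBd fun N => 2 * N + 2 * K * (2 * (2 * N + cst + N ^ k1 + N ^ k1 + 1) + 4) +
      2 * K + 12 * (2 * N + cst + N ^ k1 + N ^ k1 + 1) + 4 * N ^ (k2 * kP) + 20 := by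
    have c := PolyBd.const
    have i := PolyBd.id
    have hV := (((((c 2).mul i).add (c cst)).add (i.pow k1)).add (i.pow k1)).add (c 1)
    exact (((((((c 2).mul i).add (((c 2).mul (c K)).mul (((c 2).mul hV).add (c 4)))).add
      ((c 2).mul (c K))).add ((c 12).mul hV)).add ((c 4).mul (i.pow (k2 * kP)))).add (c 20))
  obtain ⟨k, hk⟩ := hpoly
  refine ⟨.seq (.seq baseProg (copyIn K)) (.seq (compile K (callProg K P) q) (copyOut K)),
    100 + ovh (P.regBd + 100) q, k, ?_⟩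
  intro n G hG L
  set m := G.edgeSet.ncard with hm
  set N := n + m + 2 with hN
  have hW := hk N (by omega)
  beta_reduce at hW
  set W := N ^ k with hWdef
  set A1 := N ^ k1 with hA1
  set Wp := N ^ (k2 * kP) with hWp
  have hlen : L.encode.length = n + 2 + 2 * m := by rw [L.encode_length, L.upTo_length]
  set b := L.encode.length with hb
  -- the two runs
  have hAn : A n G ≤ A1 := hA n G hG
  have hR1 : ∀ (n' : ℕ) (H : SimpleGraph (Fin n')) (L' : AdjLists H), CH n' H → Sz n G n' H →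
      ∃ (out : ℕ → ℕ) (t : ℕ) (M : H.Subgraph), BB P CH Wp L'.encode out t ∧ t ≤ TT n G ∧
        IsMaximumMatching H M ∧ Represents out M := by
    intro n' H L' hCH hSz
    obtain ⟨h1, h2⟩ := hsz n G hG n' H hCH hSz
    obtain ⟨t, s, M, e, ht, hM, hrep⟩ := hkP n' H hCH L'
    refine ⟨s.mem, t, M, ⟨n', H, L', s, M, hCH, rfl, e.mono ?_, rfl, hM, hrep⟩, ht.trans h2,
      hM, hrep⟩
    calc (n' + H.edgeSet.ncard + 2) ^ kP ≤ (N ^ k2) ^ kP := Nat.pow_le_pow_left h1 kP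
      _ = Wp := by rw [hWp, pow_mul]
  obtain ⟨t, s, M, ex1, ht, hM, hrep⟩ := hrun n G hG L (BB P CH Wp) (TT n G) hR1
  obtain ⟨u, s0, M0, ex0, hu, -, -⟩ := hrun n G hG L
    (fun inp out t => t = 0 ∧ ∃ t', BB P CH Wp inp out t') 0 (by
      intro n' H L' hCH hSz
      obtain ⟨out, t, M, h1, _, h3, h4⟩ := hR1 n' H L' hCH hSz
      exact ⟨out, 0, M, ⟨rfl, t, h1⟩, le_rfl, h3, h4⟩)
  rw [Nat.mul_zero, Nat.add_zero] at hu
  obtain ⟨t', ex2⟩ := Ex.toEx2 ex0
  obtain ⟨rfl, rfl⟩ := Ex.det BB.det ex2.toEx ex1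
  -- initial phase
  set Vm := 2 * N + cst + A1 + A1 + 1 with hVm
  have hw0 : b + 2 * K * b + 2 * K + 1 ≤ W := by
    have : 2 * K * b ≤ 2 * K * (2 * Vm + 4) := Nat.mul_le_mul_left _ (by (clear * - hlen; omega))
    omega
  obtain ⟨S0, e0, sim0, m0⟩ := init_exec (W := W) (K := K) (Rm := P.regBd)
    (V := 2 * N + cst + A1) (by omega) L (by (clear * - hlen; omega)) hw0
  -- main phase
  have hcall : CallOK (BB P CH Wp) K b P.regBd W (P.regBd + 100) Vm (callProg K P) :=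
    callProg_ok (by omega) (by (clear * - hlen hW m0; omega))
  have hw1 : b + 2 * K * (2 * N + cst + A1 + u + 1) + 2 * K + (2 * N + cst + A1) + u + 1 ≤ W := by
    have : 2 * K * (2 * N + cst + A1 + u + 1) ≤ 2 * K * (2 * Vm + 4) :=
      Nat.mul_le_mul_left _ (by (clear * - hlen hAn hu m0; omega))
    (clear * - hlen hAn hu hW m0 this; omega)
  obtain ⟨u1, S1, e1, hu1, sim1, f1⟩ := compile_exec hcall ex2 (2 * N + cst + A1) S0
    (hq.mono (by omega)) (show A1 ≤ 2 * N + cst + A1 by (clear * - hlen m0; omega)) (by (clear * - hAn hu; omega)) hw1 sim0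
  -- copy out
  have hm3 : S1.mem 0 = n := by rw [f1 0 (by omega), m0]
  have hw4 : b + 2 * K * n + 2 * K + 7 ≤ W := by
    have : 2 * K * n ≤ 2 * K * (2 * Vm + 4) := Nat.mul_le_mul_left _ (by omega)
    omega
  obtain ⟨S4, e4, hout⟩ := copyOut_exec (K := K) (W := W) (N := n) (s0.a 3) (b := b) (by omega)
    hw4 S1 sim1.base hm3 (by
      intro j hj
      rw [← sim1.arr 3 (by omega) j]
      rfl)
  refine ⟨_, S4, M, .seq _ _ _ _ _ _ _ e0 (.seq _ _ _ _ _ _ _ e1 e4), ?_, hM, ?_⟩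
  · have a1 : ovh (P.regBd + 100) q * (t' + 1) ≤
        ovh (P.regBd + 100) q * (A n G + B n G * TT n G + n + m + 1) :=
      Nat.mul_le_mul_left _ (by (clear * - hlen ht m0 hm3; omega))
    show _ ≤ (100 + ovh (P.regBd + 100) q) * (A n G + B n G * TT n G + n + m + 1)
    rw [add_mul]
    have a3 : 100 * (A n G + B n G * TT n G + n + m + 1) ≥
        (10 * b + 8) + (10 * n + 4) := by (clear * - hlen ht m0 hm3; omega)
    omega
  · intro v
    have hv := hrep v
    rw [hout v v.2]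
    exact ⟨fun h => hv.1 h, fun u hu => hv.2 u hu⟩


variable {R : List ℕ → (ℕ → ℕ) → ℕ → Prop} {cap : ℕ}

/-- The program without searches. -/
def apxC : Cmd := .seq unpack (.seq stage1 cOut)

theorem apx_run {n : ℕ} (G : SimpleGraph (Fin n)) (L : AdjLists G)
    {R : List ℕ → (ℕ → ℕ) → ℕ → Prop} {cap τ : ℕ}
    (hcap : 2 * n + 4 * G.edgeSet.ncard + 2 ≤ cap)
    (hR : ∀ (n' : ℕ) (H : SimpleGraph (Fin n')) (L' : AdjLists H), H.IsBipartite →
      (n' = 2 * n ∧ H.edgeSet.ncard ≤ 2 * G.edgeSet.ncard) →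
        ∃ (out : ℕ → ℕ) (t : ℕ) (M : H.Subgraph), R L'.encode out t ∧ t ≤ τ ∧
          IsMaximumMatching H M ∧ Represents out M) :
    ∃ (t : ℕ) (s : St) (m C g D : ℕ → ℕ) (F : Finset ℕ),
      Ex R cap apxC (St.init L.encode) t s ∧ S1X G m C g D F ∧
      (∀ v < n, s.a 3 v = if m v = v then 0 else m v + 1) ∧
      t ≤ 500 * (n + G.edgeSet.ncard + 1) + 1 * τ := by
  set m := G.edgeSet.ncard with hm
  have hG := natAdj_gr G
  have hinit : ∀ j i, (St.init L.encode).a j i = if j = 0 then L.encode.getD i 0 else 0 :=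
    fun j i => rfl
  have hoffn : L.encode.getD (n + 1) 0 = 2 * m := by rw [L.encode_off le_rfl, L.upTo_length]
  obtain ⟨s1, t1, e1, ht1, r10, r11, o1, a1, j1⟩ := unpack_spec (R := R) (cap := cap)
    (St.init L.encode) n (2 * m) (by rw [hinit, if_pos rfl, L.encode_zero])
    (by rw [hinit, if_pos rfl, hoffn])
  have hn : s1.a 4 n = 2 * m := by rw [o1 n le_rfl, hinit, if_pos rfl, hoffn]
  have hC : CSR n (natAdj G) (s1.a 4) (s1.a 5) := by
    refine csr_of_encode L (fun i hi => ?_) (fun p hp => ?_)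
    · rw [o1 i hi, hinit, if_pos rfl]
    · rw [a1 p (by omega), hinit, if_pos rfl]
  have q1 : s1.a 1 = fun _ => 0 := by
    rw [j1 1 (by decide) (by decide)]
    funext i
    rw [hinit, if_neg (by decide)]
  obtain ⟨s2, t2, m1, C, g, D, F, e2, ht2, hS, h40, r20, r21, h45⟩ := stage1_specG (R := R) (cap := cap)
    (n := n) (A := natAdj G) s1 (τ := τ)
    (by
      intro H L' hH hlen
      refine hR _ H L' hH ⟨rfl, ?_⟩
      rw [hn, L'.upTo_length] at hlen
      omega)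
    hG hC r10 r11 (by rw [q1]; intro i _; rfl) (by rw [q1]; simp [encLen]; (clear * - r10 hn; omega))
    (by rw [hn]; omega)
  obtain ⟨s4, t4, e4, ht4, a43⟩ := cOut_spec (R := R) (cap := cap) s2 r20
  refine ⟨_, s4, m1, C, g, D, F, .seq e1 (.seq e2 e4), hS.toX, ?_, ?_⟩
  · intro v hv
    rw [a43 v hv, h40 v hv]
  · rw [hn] at ht2
    rw [one_mul]
    omega

theorem apxC_ok : apxC.ok 64 4 := by
  simp only [apxC, unpack, cOut, Cmd.ok_seq, Cmd.ok_blk, List.mem_cons, List.not_mem_nil, or_false, forall_eq_or_imp, B.ok_const, zero_le, B.ok_load, Nat.ofNat_pos, Nat.one_le_ofNat, B.ok_copy, forall_eq, B.ok_inc, and_self, Cmd.ok_loop, B.ok_store, Nat.reduceLT, stage1_ok, augLoop_ok, Cmd.ok_ite]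

/-- A matching and its size. -/
theorem exists_sub {n : ℕ} {G : SimpleGraph (Fin n)} {m f : ℕ → ℕ} (hm : Mat (natAdj G) m)
    (hf : ∀ v < n, f v = if m v = v then 0 else m v + 1) :
    ∃ M : G.Subgraph, M.IsMatching ∧ Represents f M ∧
      (exposed n m).card + 2 * M.edgeSet.ncard = n := by
  refine ⟨subOf G m hm, subOf_matching hm, fun v => ⟨fun hv => ?_, ?_⟩, subOf_card hm⟩
  · have : m v = v := by
      by_contra hne
      exact hv hne
    rw [hf v v.2, if_pos this]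
  · rintro u ⟨h1, h2⟩
    rw [hf v v.2, if_neg, h1]
    rw [h1]
    exact fun h => h2 (Fin.ext h.symm)

/-- One bipartite call gives a matching with at most `surplus G` edges less than a maximum
matching. -/
theorem apx_reduction (T : ℕ → ℕ → ℕ)
    (hT : ∀ n n' m m', n ≤ n' → m ≤ m' → T n m ≤ T n' m')
    (hP : ∃ P, Solves P (fun _ G => G.IsBipartite) (fun n G => T n G.edgeSet.ncard)) :
    ∃ P C, SolvesUpTo P (fun _ G => surplus G) (fun n G =>
      C * (T (2 * n) (2 * G.edgeSet.ncard) + n + G.edgeSet.ncard + 1)) := by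
  obtain ⟨P, hP⟩ := hP
  have hpow : ∀ N, 2 ≤ N → 500 * N ≤ N ^ (9 + 1) := by
    intro N hN
    rw [pow_succ]
    apply Nat.mul_le_mul_right
    exact (by norm_num : 500 ≤ 2 ^ 9).trans (Nat.pow_le_pow_left hN 9)
  have hA : ∀ (n : ℕ) (G : SimpleGraph (Fin n)), 500 * (n + G.edgeSet.ncard + 1) ≤
      (n + G.edgeSet.ncard + 2) ^ (9 + 1) := by
    intro n G
    refine le_trans ?_ (hpow (n + G.edgeSet.ncard + 2) (by omega))
    omega
  have hC : ∀ (n : ℕ) (G : SimpleGraph (Fin n)),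
      2 * n + 4 * G.edgeSet.ncard + 2 ≤ (n + G.edgeSet.ncard + 2) ^ (9 + 1) := by
    intro n G
    refine le_trans ?_ (hpow (n + G.edgeSet.ncard + 2) (by omega))
    omega
  have hsz : ∀ (n : ℕ) (G : SimpleGraph (Fin n)), True → ∀ (n' : ℕ) (H : SimpleGraph (Fin n')),
      H.IsBipartite → (n' = 2 * n ∧ H.edgeSet.ncard ≤ 2 * G.edgeSet.ncard) →
      n' + H.edgeSet.ncard + 2 ≤ (n + G.edgeSet.ncard + 2) ^ 2 ∧
        T n' H.edgeSet.ncard ≤ T (2 * n) (2 * G.edgeSet.ncard) := by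
    rintro n G - n' H - ⟨h1, h2⟩
    refine ⟨?_, hT _ _ _ _ h1.le h2⟩
    obtain ⟨N, hN⟩ : ∃ N, N = n + G.edgeSet.ncard + 2 := ⟨_, rfl⟩
    rw [← hN, pow_two]
    have h4 : 2 * N ≤ N * N := Nat.mul_le_mul_right _ (by omega)
    omega
  obtain ⟨P', C, k, hk⟩ := runs_of_L1 (CG := fun _ _ => True)
    (Q := fun n G M => M.IsMatching ∧ ∀ M' : G.Subgraph, M'.IsMatching →
      M'.edgeSet.ncard ≤ M.edgeSet.ncard + surplus G) hP (K := 64) (by decide)
    apxC (cst := 4) apxC_ok (9 + 1) 2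
    (fun n G n' H => n' = 2 * n ∧ H.edgeSet.ncard ≤ 2 * G.edgeSet.ncard)
    (fun n G => T (2 * n) (2 * G.edgeSet.ncard))
    (fun n G => 500 * (n + G.edgeSet.ncard + 1))
    (fun _ _ => 1) hsz (fun n G _ => hA n G)
    (fun n G _ L R τ hR => by
      obtain ⟨t, s, m, C, g, D, F, e, hS, h3, ht⟩ := apx_run G L (hC n G) hR
      obtain ⟨M, hM, hrep, hcard⟩ := exists_sub hS.mat h3
      refine ⟨t, s, M, e, ht, ⟨hM, fun M' hM' => ?_⟩, hrep⟩
      have h1 := hS.gap _ (mateOf_mat hM')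
      have h2 := mateOf_card hM'
      omega)
  refine ⟨P', 501 * C, k, fun n G L => ?_⟩
  obtain ⟨t, s, M, e, ht, hM, hr⟩ := hk n G trivial L
  refine ⟨t, s, M, e, ht.trans ?_, hM.1, hM.2, hr⟩
  beta_reduce
  rw [mul_comm 501 C, mul_assoc]
  apply Nat.mul_le_mul_left
  omega

/-- Every graph has the structure found by stage 1. -/
theorem exists_S1X {n : ℕ} (G : SimpleGraph (Fin n)) :
    ∃ (m C g D : ℕ → ℕ) (F : Finset ℕ), S1X G m C g D F := by
  classical
  obtain ⟨L⟩ : Nonempty (AdjLists G) :=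
    ⟨⟨fun v => (Finset.univ.filter (fun w => G.Adj v w)).toList,
      fun v => Finset.nodup_toList _, fun u v => by simp⟩⟩
  obtain ⟨t, s, m, C, g, D, F, _, hS, _⟩ := apx_run (cap := 2 * n + 4 * G.edgeSet.ncard + 2)
    (R := fun _ _ _ => True) (τ := 0) G L le_rfl (by
      intro n' H L' _ _
      obtain ⟨M, hM⟩ : ∃ M : H.Subgraph, IsMaximumMatching H M := by
        have hfin : (Set.range fun M : {M : H.Subgraph // M.IsMatching} =>
            M.1.edgeSet.ncard).Finite := Set.toFinite _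
        obtain ⟨_, ⟨M, rfl⟩, hM⟩ := Set.exists_max_image _ id hfin
          ⟨_, ⟨⟨⊥, by intro v hv; exact absurd hv (by simp)⟩, rfl⟩⟩
        exact ⟨M.1, M.2, fun M' hM' => hM _ ⟨⟨M', hM'⟩, rfl⟩⟩
      obtain ⟨M', hM', hrep⟩ := maximum_of_isMax (isMax_mateOf hM)
        (f := fun v => if mateOf M v = v then 0 else mateOf M v + 1) (fun v _ => rfl)
      exact ⟨_, 0, M', trivial, le_rfl, hM', hrep⟩)
  exact ⟨m, C, g, D, F, hS⟩

end Vale.Agent.P305
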