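import Vale.Agent.P305.H607.Theory

/-! The surplus is at most half of the odd packing number. -/

set_option autoImplicit false
set_option linter.all false

namespace Vale.Agent.P305

variable {n : ℕ}

theorem matchedIn_le_assignedIn (G : SimpleGraph (Fin n)) (X : Set (Fin n)) :
    matchedIn G X ≤ assignedIn G X := by
  classical
  have hmem := Nat.sSup_mem (s := {k | ∃ M : G.Subgraph, M.IsMatching ∧ M.verts ⊆ X ∧
      M.verts.ncard = k})
    ⟨0, ⊥, by intro v hv; exact absurd hv (by simp), by simp, by simp⟩ (matchedIn_bdd G X)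
  obtain ⟨M, h1, h2, h3⟩ := hmem
  have hch : ∀ v, v ∈ M.verts → ∃ w, M.Adj v w := fun v hv => ⟨_, (h1 hv).choose_spec.1⟩
  refine le_csSup (assignedIn_bdd G X)
    ⟨M.verts, fun v => if h : v ∈ M.verts then (hch v h).choose else v, h2, ?_, ?_, h3⟩
  · intro v hv
    have e := (hch v hv).choose_spec
    simp only
    rw [dif_pos hv]
    exact ⟨h2 e.snd_mem, M.adj_sub e⟩
  · intro v hv w hw e
    have ev := (hch v hv).choose_spec
    have ew := (hch w hw).choose_spec
    simp only at e
    rw [dif_pos hv, dif_pos hw] at e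
    rw [← e] at ew
    exact h1.eq_of_adj_right ev ew

theorem exists_oddPackingIn (G : SimpleGraph (Fin n)) (X : Set (Fin n)) :
    ∃ S : Fin (oddPackingIn G X) → Set (Fin n), (∀ i, S i ⊆ X) ∧
      IsOddPacking G (oddPackingIn G X) S :=
  Nat.sSup_mem (s := {k | ∃ S : Fin k → Set (Fin n), (∀ i, S i ⊆ X) ∧ IsOddPacking G k S})
    ⟨0, fun i => i.elim0, fun i => i.elim0, fun i => i.elim0, fun i => i.elim0⟩
    (oddPackingIn_bdd G X)

theorem sum_oddPackingIn (G : SimpleGraph (Fin n)) [Fintype G.ConnectedComponent] :
    ∑ K : G.ConnectedComponent, oddPackingIn G K.supp ≤ oddPacking G := by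
  classical
  choose S hS using fun K : G.ConnectedComponent => exists_oddPackingIn G K.supp
  have hc : Fintype.card (Σ K : G.ConnectedComponent, Fin (oddPackingIn G K.supp)) =
      ∑ K : G.ConnectedComponent, oddPackingIn G K.supp := by
    rw [Fintype.card_sigma]
    simp
  obtain ⟨e⟩ : Nonempty (Fin (∑ K : G.ConnectedComponent, oddPackingIn G K.supp) ≃
      Σ K : G.ConnectedComponent, Fin (oddPackingIn G K.supp)) :=
    ⟨(Fintype.equivFinOfCardEq hc).symm⟩
  refine le_oddPacking (S := fun i => S (e i).1 (e i).2) ⟨?_, ?_⟩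
  · intro i
    exact (hS (e i).1).2.1 (e i).2
  · intro i j hij u hu v hv
    have hne : e i ≠ e j := fun h => hij (e.injective h)
    beta_reduce at hu hv
    generalize e i = x at hu hne
    generalize e j = y at hv hne
    obtain ⟨K, a⟩ := x
    obtain ⟨K', b⟩ := y
    by_cases hK : K = K'
    · subst hK
      have hab : a ≠ b := fun h => hne (by rw [h])
      exact (hS K).2.2 a b hab u hu v hv
    · have h1 : G.connectedComponentMk u = K := (hS K).1 a hu
      have h2 : G.connectedComponentMk v = K' := (hS K').1 b hv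
      refine ⟨?_, ?_⟩
      · rintro rfl
        exact hK (h1.symm.trans h2)
      · intro hadj
        exact hK (h1.symm.trans ((SimpleGraph.ConnectedComponent.sound hadj.reachable).trans h2))

theorem two_mul_surplus_le (G : SimpleGraph (Fin n)) : 2 * surplus G ≤ oddPacking G := by
  classical
  refine le_trans ?_ (sum_oddPackingIn G)
  unfold surplus
  rw [Finset.mul_sum]
  refine le_trans (Finset.sum_le_sum (g := fun K : G.ConnectedComponent =>
    oddPackingIn G K.supp) ?_) (le_of_eq ?_)
  · intro K _
    have := matchedIn_le_assignedIn G K.supp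
    omega
  · convert rfl

theorem surplus_le (G : SimpleGraph (Fin n)) : surplus G ≤ n := by
  have h1 := two_mul_surplus_le G
  have h2 := oddPacking_le G
  omega

end Vale.Agent.P305
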