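import Vale.Agent.P305.OddDefs

/-! The surplus of a graph: half of the odd packing number minus the fractional gap, component by
component; programs computing a nearly maximum matching. -/

set_option autoImplicit false

namespace Vale.Agent.P305

/-- The largest number of pairwise disjoint, mutually non-adjacent vertex sets inside `X`, each of
which induces a graph that contains an odd cycle. -/
noncomputable def oddPackingIn {n : ℕ} (G : SimpleGraph (Fin n)) (X : Set (Fin n)) : ℕ :=
  sSup {k | ∃ S : Fin k → Set (Fin n), (∀ i, S i ⊆ X) ∧ IsOddPacking G k S}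

/-- The largest number of vertices covered by a matching all of whose vertices lie in `X`: twice
the matching number of the graph induced by `X`. -/
noncomputable def matchedIn {n : ℕ} (G : SimpleGraph (Fin n)) (X : Set (Fin n)) : ℕ :=
  sSup {k | ∃ M : G.Subgraph, M.IsMatching ∧ M.verts ⊆ X ∧ M.verts.ncard = k}

/-- The largest number of vertices of `X` to which distinct neighbours in `X` can be assigned:
twice the fractional matching number of the graph induced by `X`, that is, the largest number of
its vertices that can be covered by vertex-disjoint edges and odd cycles. -/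
noncomputable def assignedIn {n : ℕ} (G : SimpleGraph (Fin n)) (X : Set (Fin n)) : ℕ :=
  sSup {k | ∃ (s : Set (Fin n)) (f : Fin n → Fin n), s ⊆ X ∧
    (∀ v ∈ s, f v ∈ X ∧ G.Adj v (f v)) ∧ Set.InjOn f s ∧ s.ncard = k}

/-- The sum over the connected components `K` of `⌊(p(K) + 2 ν(K) - 2 ν_f(K)) / 2⌋`, where `p` is
the odd packing number, `ν` the matching number and `ν_f` the fractional matching number. -/
noncomputable def surplus {n : ℕ} (G : SimpleGraph (Fin n)) : ℕ :=
  open Classical in
  ∑ K : G.ConnectedComponent,
    (oddPackingIn G K.supp + matchedIn G K.supp - assignedIn G K.supp) / 2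

/-- Program `P` computes, for every graph `G` given by adjacency lists, a matching with at most
`q G` edges less than a maximum matching, in time at most `T n G`, on words of `O(log (n + m))`
bits. -/
def SolvesUpTo (P : Prog) (q T : ∀ n : ℕ, SimpleGraph (Fin n) → ℕ) : Prop :=
  ∃ k : ℕ, ∀ (n : ℕ) (G : SimpleGraph (Fin n)) (L : AdjLists G),
    ∃ (t : ℕ) (s : State) (M : G.Subgraph),
      Exec ((n + G.edgeSet.ncard + 2) ^ k) P (State.init L.encode) t s ∧ t ≤ T n G ∧
      M.IsMatching ∧ (∀ M' : G.Subgraph, M'.IsMatching →
        M'.edgeSet.ncard ≤ M.edgeSet.ncard + q n G) ∧ Represents s.mem M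

end Vale.Agent.P305
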