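import Vale.Agent.P305.H607.Approx

/-! The gap between the fractional matching number and the matching number is at most half of the
odd packing number. -/

set_option autoImplicit false
set_option linter.all false

namespace Vale.Agent.P305

variable {n : ℕ}

/-- The edges inside `X`. -/
def inside (G : SimpleGraph (Fin n)) (X : Set (Fin n)) : SimpleGraph (Fin n) where
  Adj u v := G.Adj u v ∧ u ∈ X ∧ v ∈ X
  symm := ⟨fun _ _ h => ⟨h.1.symm, h.2.2, h.2.1⟩⟩
  loopless := ⟨fun _ h => G.loopless.irrefl _ h.1⟩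

theorem assignedIn_inside (G : SimpleGraph (Fin n)) (X : Set (Fin n)) :
    assignedIn G X ≤ assignedIn (inside G X) Set.univ := by
  have hmem := Nat.sSup_mem (s := {k | ∃ (s : Set (Fin n)) (f : Fin n → Fin n), s ⊆ X ∧
      (∀ v ∈ s, f v ∈ X ∧ G.Adj v (f v)) ∧ Set.InjOn f s ∧ s.ncard = k})
    ⟨0, ∅, id, Set.empty_subset _, fun v hv => hv.elim, Set.injOn_empty _, Set.ncard_empty _⟩
    (assignedIn_bdd G X)
  obtain ⟨s, f, h1, h2, h3, h4⟩ := hmem
  exact le_csSup (assignedIn_bdd (inside G X) Set.univ)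
    ⟨s, f, Set.subset_univ _, fun v hv => ⟨Set.mem_univ _, (h2 v hv).2, h1 hv, (h2 v hv).1⟩, h3, h4⟩

theorem matchedIn_inside (G : SimpleGraph (Fin n)) (X : Set (Fin n)) :
    matchedIn (inside G X) Set.univ ≤ matchedIn G X := by
  have hmem := Nat.sSup_mem (s := {k | ∃ M : (inside G X).Subgraph, M.IsMatching ∧
      M.verts ⊆ Set.univ ∧ M.verts.ncard = k})
    ⟨0, ⊥, by intro v hv; exact absurd hv (by simp), by simp, by simp⟩
    (matchedIn_bdd (inside G X) Set.univ)
  obtain ⟨M, h1, _, h3⟩ := hmem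
  have hm := mateOf_mat h1
  have hm' : Mat (natAdj G) (mateOf M) :=
    ⟨hm.inv, fun v hv => by
      obtain ⟨a, b, c⟩ := hm.adj v hv
      exact ⟨a, b, c.1⟩⟩
  have e1 := subOf_card hm'
  have e2 := mateOf_card h1
  have e3 := ncard_verts (subOf_matching hm')
  have e4 := ncard_verts h1
  refine le_csSup (matchedIn_bdd G X) ⟨subOf G (mateOf M) hm', subOf_matching hm', ?_, ?_⟩
  · intro v hv
    have hv' : mateOf M v ≠ v := hv
    obtain ⟨_, _, c⟩ := hm.adj v hv'
    exact c.2.1
  · change _ = matchedIn (inside G X) Set.univ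
    have h3' : M.verts.ncard = matchedIn (inside G X) Set.univ := h3
    rw [← h3']
    omega

theorem oddPacking_inside (G : SimpleGraph (Fin n)) (X : Set (Fin n)) :
    oddPacking (inside G X) ≤ oddPackingIn G X := by
  classical
  have hmem := Nat.sSup_mem (s := {k | ∃ S : Fin k → Set (Fin n), IsOddPacking (inside G X) k S})
    ⟨0, fun i => i.elim0, fun i => i.elim0, fun i => i.elim0⟩ (oddPacking_bdd (inside G X))
  obtain ⟨S, hS⟩ := hmem
  refine le_oddPackingIn (S := fun i => S i ∩ X) (fun i => Set.inter_subset_right) ⟨?_, ?_⟩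
  · intro i hb
    apply hS.1 i
    obtain ⟨col⟩ := hb
    refine ⟨SimpleGraph.Coloring.mk
      (fun v => if h : (v : Fin n) ∈ X then col ⟨v, v.2, h⟩ else 0) ?_⟩
    intro u v huv
    have h1 : (inside G X).Adj (u : Fin n) (v : Fin n) := huv
    rw [dif_pos h1.2.1, dif_pos h1.2.2]
    exact col.valid (v := ⟨u, u.2, h1.2.1⟩) (w := ⟨v, v.2, h1.2.2⟩) (by
      simpa [SimpleGraph.comap_adj] using h1.1)
  · intro i j hij u hu v hv
    obtain ⟨h1, h2⟩ := hS.2 i j hij u hu.1 v hv.1
    exact ⟨h1, fun h => h2 ⟨h, hu.2, hv.2⟩⟩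

/-- The global form. -/
theorem S1X.gap_univ {G : SimpleGraph (Fin n)} {m C g D : ℕ → ℕ} {F : Finset ℕ}
    (h : S1X G m C g D F) : assignedIn G Set.univ ≤ matchedIn G Set.univ + oddPacking G := by
  classical
  have hsum : assignedIn G Set.univ + (Finset.univ.filter (fun v : Fin n => g v = v)).card ≤ n := by
    have hmem := Nat.sSup_mem (s := {k | ∃ (s : Set (Fin n)) (f : Fin n → Fin n),
        s ⊆ Set.univ ∧ (∀ v ∈ s, f v ∈ Set.univ ∧ G.Adj v (f v)) ∧ Set.InjOn f s ∧ s.ncard = k})
      ⟨0, ∅, id, Set.empty_subset _, fun v hv => hv.elim, Set.injOn_empty _, Set.ncard_empty _⟩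
      (assignedIn_bdd G Set.univ)
    obtain ⟨s, f, h1, h2, h3, h4⟩ := hmem
    have key := assign_le h.gmax s.toFinset f
      (fun v hv => (h2 v (Set.mem_toFinset.1 hv)).2)
      (fun v hv w hw e => h3 (Set.mem_toFinset.1 hv) (Set.mem_toFinset.1 hw) e)
    rw [← Set.ncard_eq_toFinset_card', h4] at key
    exact key
  -- all components
  have h1 : (Finset.univ.filter (fun v : Fin n => m v = v)).card ≤
      (Finset.univ.filter (fun v : Fin n => g v = v)).card + oddPacking G := by
    have := sum_oddPackingIn G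
    rw [sum_cnt G, sum_cnt G]
    refine le_trans (Finset.sum_le_sum fun K _ => h.exp_le K) ?_
    rw [Finset.sum_add_distrib]
    omega
  obtain ⟨M, hM, _, hcard⟩ := exists_sub h.mat (f := fun v => if m v = v then 0 else m v + 1)
    (fun v _ => rfl)
  have h2 : M.verts.ncard ≤ matchedIn G Set.univ :=
    le_csSup (matchedIn_bdd G Set.univ) ⟨M, hM, Set.subset_univ _, rfl⟩
  have h3 := ncard_verts hM
  rw [exposed_card_fin] at hcard
  omega

/-- `2 ν(G[X]) ≤ 2 ν_f(G[X]) ≤ 2 ν(G[X]) + p(G[X])`. -/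
theorem assignedIn_le_add (G : SimpleGraph (Fin n)) (X : Set (Fin n)) :
    assignedIn G X ≤ matchedIn G X + oddPackingIn G X := by
  obtain ⟨m, C, g, D, F, hS⟩ := exists_S1X (inside G X)
  have h1 := hS.gap_univ
  have h2 := assignedIn_inside G X
  have h3 := matchedIn_inside G X
  have h4 := oddPacking_inside G X
  omega

/-- Components with odd packing number at most one. -/
theorem surplus_eq_zero (G : SimpleGraph (Fin n))
    (h : ∀ K : G.ConnectedComponent, oddPackingIn G K.supp ≤ 1) : surplus G = 0 := by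
  classical
  unfold surplus
  apply Finset.sum_eq_zero
  intro K _
  have h1 := h K
  have h2 := matchedIn_le_assignedIn G K.supp
  omega

theorem component_almostLinear (hB : AlmostLinear fun _ G => G.IsBipartite) :
    AlmostLinear fun n G => ∀ K : G.ConnectedComponent, oddPackingIn G K.supp ≤ 1 := by
  obtain ⟨P, T, hP, hT⟩ := surplus_almostLinear hB (fun _ => 0)
    (fun ε hε => ⟨0, fun N => by simp⟩)
  exact ⟨P, T, hP.mono (fun n G hG => by rw [surplus_eq_zero G hG]) fun _ _ _ => le_rfl, hT⟩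

end Vale.Agent.P305
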