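import Vale.Agent.P305.H607.Bound

/-! Stage 1 again, with the information about the double cover. -/

set_option autoImplicit false
set_option linter.all false

namespace Vale.Agent.P305

open Function (update)
open L1

variable {R : List ℕ → (ℕ → ℕ) → ℕ → Prop} {cap : ℕ}

/-- `S1X` for a relation on `ℕ`. -/
structure S1G (n : ℕ) (A : ℕ → ℕ → Prop) (m C g D : ℕ → ℕ) (F : Finset ℕ) : Prop where
  mat : Mat A m
  gmax : IsMax (2 * n) (HD n A) g
  sub : ∀ v < n, m v = v → g v = v ∨ ∃ c ∈ F, D c = v
  dC : ∀ c ∈ F, D c < n ∧ C (D c) = c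
  odd : ∀ c ∈ F, OddSet A (fun v => v < n ∧ C v = c)
  apart : ∀ u v, A u v → C u ∈ F → C v ∈ F → C u = C v
  conn : ∀ c ∈ F, ∀ u < n, ∀ v < n, C u = c → C v = c → Relation.ReflTransGen A u v

/-- The exposed vertices of the final matching. -/
theorem Cyc.subset {n : ℕ} {A : ℕ → ℕ → Prop} {g P C I O T D Y : ℕ → ℕ}
    (h : Cyc n g P C I O) (hA : PI n A g) (hP : Prg n A C O T D Y) (v : ℕ) (hv : v < n)
    (hvv : fm n g P C I O D Y v = v) : g v = v ∨ ∃ c ≤ n, T c = 1 ∧ D c = v := by
  have hsub : exposed n (fm n g P C I O D Y) ⊆ ((Finset.range n).filter (fun v => g v = v)) ∪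
      ((Finset.range (n + 1)).filter (fun c => T c = 1)).image D := by
    intro v hv
    simp only [exposed, Finset.mem_filter, Finset.mem_range] at hv
    obtain ⟨hv, e⟩ := hv
    rw [Finset.mem_union]
    rcases kd1_le (g := g) (P := P) (C := C) (I := I) (O := O) (D := D) v with hk | hk | hk
    · unfold fm at e
      rw [if_neg (by omega), if_neg (by omega), if_neg (by omega)] at e
      by_cases hO : O (C v) = 1
      · rw [if_pos hO] at e
        right
        have hvD : v = D (C v) := by
          unfold kd1 at hk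
          rw [if_pos hO] at hk
          split_ifs at hk with h1
          exact h1
        rw [Finset.mem_image]
        refine ⟨C v, ?_, hvD.symm⟩
        rw [Finset.mem_filter, Finset.mem_range]
        refine ⟨by have := h.le v hv; omega, ?_⟩
        rcases hP.tt (C v) (h.le v hv) hO with ⟨e2, _⟩ | ⟨_, c', hc', hne, hO', _, e2, _, _⟩
        · exact e2
        · exfalso
          rw [e, hvD] at e2
          have h1 := (hP.dsg c' hc' hO').2
          have h2 := (hP.dsg (C v) (h.le v hv) hO).2
          rw [← e2, ← hvD] at h1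
          exact hne h1.symm
      · left
        rw [Finset.mem_filter, Finset.mem_range]
        refine ⟨hv, ?_⟩
        unfold kd1 at hk
        rw [if_neg hO] at hk
        split_ifs at hk with h1 h2
        exact h2
    · exfalso
      rcases hA.out v hv with e2 | ⟨w, hw, e2, _⟩
      · exact h.kd_out hv hk e2
      · unfold fm at e
        rw [if_neg (by omega), if_neg (by omega), if_pos hk, e2] at e
        have hwv : w = v := by omega
        subst hwv
        -- an arc from `v` to itself is impossible: its kind would be both 1 and 2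
        have h1 := h.kd_out hv hk
        rcases hA.out w hv with e3 | ⟨w', _, e3, e4⟩
        · omega
        · have h5 : w' = w := by omega
          have := h.same w hv w hv e2
          rcases h.p12 w hv with p | p
          all_goals
            by_cases hO : O (C w) = 1
            · rcases h.odd w hv w hv e2 hO with ⟨o1, _⟩ | ⟨o1, o2, o3, o4⟩
              · omega
              · unfold kd1 at hk
                rw [if_pos hO] at hk
                obtain ⟨hu, hCu⟩ := hP.dsg (C w) (h.le w hv) hO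
                have h6 := o4 _ hu hCu
                have h7 := h.inj w hv _ hu hO hCu.symm (by omega)
                rw [if_pos h7] at hk
                omega
            · exact h.even w hv w hv e2 hO rfl
    · exfalso
      rcases hA.inn v hv with e2 | ⟨u, hu, e2, _⟩
      · exact h.kd_in hv hk e2
      · unfold fm at e
        rw [if_neg (by omega), if_pos hk, e2] at e
        subst e
        have e3 := (hA.arc u hu u hu).2 e2
        by_cases hO : O (C u) = 1
        · rcases h.odd u hv u hv e3 hO with ⟨o1, _⟩ | ⟨o1, o2, o3, o4⟩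
          · omega
          · unfold kd1 at hk
            rw [if_pos hO] at hk
            obtain ⟨hu, hCu⟩ := hP.dsg (C u) (h.le u hv) hO
            have h6 := o4 _ hu hCu
            have h7 := h.inj u hv _ hu hO hCu.symm (by omega)
            rw [if_pos h7] at hk
            omega
        · exact h.even u hv u hv e3 hO rfl
  have hm := hsub (show v ∈ exposed n (fm n g P C I O D Y) by
    simp only [exposed, Finset.mem_filter, Finset.mem_range]; exact ⟨hv, hvv⟩)
  rw [Finset.mem_union, Finset.mem_filter, Finset.mem_image] at hm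
  rcases hm with hm | ⟨c, hc, h2⟩
  · exact Or.inl hm.2
  · rw [Finset.mem_filter, Finset.mem_range] at hc
    exact Or.inr ⟨c, by omega, hc.2, h2⟩

/-- An odd cycle is connected. -/
theorem Cyc.conn {n : ℕ} {A : ℕ → ℕ → Prop} {g P C I O : ℕ → ℕ}
    (h : Cyc n g P C I O) (hA : PI n A g) (hG : Gr n A) {c : ℕ} (hO : O c = 1) {u v : ℕ}
    (hu : u < n) (hv : v < n) (hCu : C u = c) (hCv : C v = c) : Relation.ReflTransGen A u v := by
  classical
  obtain ⟨B, hB⟩ : ∃ B, ∀ x < n, I x ≤ B :=
    ⟨(Finset.range n).sup I, fun x hx => Finset.le_sup (f := I) (Finset.mem_range.2 hx)⟩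
  have key : ∀ k, ∀ x < n, C x = c → B - I x ≤ k →
      ∃ z < n, C z = c ∧ I z = 0 ∧ Relation.ReflTransGen A x z := by
    intro k
    induction k with
    | zero =>
      intro x hx hC hk
      have hO' : O (C x) = 1 := by rw [hC]; exact hO
      rcases hA.out x hx with e | ⟨w, hw, e, hxw⟩
      · exact absurd e (h.full x hx hO').1
      · have hCw := h.same x hx w hw e
        rcases h.odd x hx w hw e hO' with ⟨o1, _⟩ | ⟨o1, _⟩
        · have := hB w hw
          have := hB x hx
          omega
        · exact ⟨w, hw, by rw [← hCw, hC], o1, Relation.ReflTransGen.single hxw⟩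
    | succ k ih =>
      intro x hx hC hk
      have hO' : O (C x) = 1 := by rw [hC]; exact hO
      rcases hA.out x hx with e | ⟨w, hw, e, hxw⟩
      · exact absurd e (h.full x hx hO').1
      · have hCw := h.same x hx w hw e
        rcases h.odd x hx w hw e hO' with ⟨o1, _⟩ | ⟨o1, _⟩
        · obtain ⟨z, hz, h1, h2, h3⟩ := ih w hw (by rw [← hCw, hC]) (by omega)
          exact ⟨z, hz, h1, h2, h3.head hxw⟩
        · exact ⟨w, hw, by rw [← hCw, hC], o1, Relation.ReflTransGen.single hxw⟩
  obtain ⟨z, hz, z1, z2, z3⟩ := key _ u hu hCu le_rfl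
  obtain ⟨y, hy, y1, y2, y3⟩ := key _ v hv hCv le_rfl
  have e : z = y := h.inj z hz y hy (by rw [z1]; exact hO) (by rw [z1, y1]) (by rw [z2, y2])
  subst e
  have hs : ∀ a b, Relation.ReflTransGen A a b → Relation.ReflTransGen A b a := by
    intro a b hab
    induction hab with
    | refl => exact Relation.ReflTransGen.refl
    | tail _ h2 ih => exact Relation.ReflTransGen.head (hG.symm h2) ih
  exact z3.trans (hs _ _ y3)

theorem stage1_specG {n : ℕ} {A : ℕ → ℕ → Prop} (s : St) {τ : ℕ}
    (hBB : ∀ (H : SimpleGraph (Fin (2 * n))) (L' : AdjLists H), H.IsBipartite →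
      (L'.upTo (2 * n)).length ≤ 2 * s.a 4 n →
      ∃ out t M, R L'.encode out t ∧ t ≤ τ ∧ IsMaximumMatching H M ∧ Represents out M)
    (hG : Gr n A) (hcsr : CSR n A (s.a 4) (s.a 5)) (h0 : s.r 0 = n) (h1 : s.r 1 = 0)
    (hclean : Clean (s.a 1)) (hlen : encLen (s.a 1) ≤ 2 * n + 2 + 2 * s.a 4 n)
    (hcap : 2 * n + 2 + 2 * s.a 4 n ≤ cap) :
    ∃ s' t m C g D F, Ex R cap stage1 s t s' ∧ t ≤ τ + 200 * (n + s.a 4 n + 1) ∧
      S1G n A m C g D F ∧ (∀ v < n, s'.a 40 v = m v) ∧ s'.r 0 = n ∧ s'.r 1 = 0 ∧
      (∀ j ∈ [4, 5], s'.a j = s.a j) := by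
  -- double cover
  obtain ⟨s1, t1, e1, ht1, a10, a2n, a20, areg, aarr⟩ := dcC_spec (R := R) (cap := cap) s hG hcsr
    h0 (by omega)
  have a1 : s1.a 1 = s.a 1 := aarr 1 (by decide) (by decide)
  -- packing
  obtain ⟨s2, t2, L', e2, ht2, hL', hcl2, hlen2, hup2, barr, breg⟩ := pack_spec' (R := R)
    (cap := cap) s1 (H := dcG n A) a20 (by rw [a1]; exact hclean) (by rw [a1]; (clear * - hlen hcap; omega))
    (by rw [natAdj_dcG hG]; exact a10)
  rw [a1, a2n] at ht2
  -- call
  obtain ⟨out, tc, M, hRc, htc, hMM, hrep⟩ := hBB (dcG n A) L' (dcG_bip n A)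
    (by rw [hup2, a2n])
  have e3 : Ex R cap .call s2 (tc + L'.encode.length + 1) (callResult s2 L'.encode out) :=
    Ex.call hL' hRc
  obtain ⟨s3, hs3⟩ : ∃ s3, s3 = callResult s2 L'.encode out := ⟨_, rfl⟩
  rw [← hs3] at e3
  have c3r : s3.r = s2.r := by rw [hs3]; rfl
  have c3a : ∀ j, j ≠ 2 → s3.a j = s2.a j := by
    intro j hj
    rw [hs3]
    show update s2.a 2 _ j = _
    rw [Function.update_of_ne hj]
  have hgmax := isMax_mateOf hMM
  rw [natAdj_dcG hG] at hgmax
  obtain ⟨g, hg⟩ : ∃ g, g = mateOf M := ⟨_, rfl⟩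
  rw [← hg] at hgmax
  have c32 : ∀ v < 2 * n, s3.a 2 v = if g v = v then 0 else g v + 1 := by
    intro v hv
    rw [hs3]
    show update s2.a 2 _ 2 v = _
    rw [Function.update_self]
    have hh : L'.encode.headI = 2 * n := rfl
    show (if v < L'.encode.headI then out v else s2.a 2 v) = _
    rw [hh, if_pos hv, hg]
    exact hrep.mateOf hMM.1 hv
  have r21 : s2.r 1 = 0 := by rw [breg 1 (by omega), areg 1 (by decide)]; exact h1
  have r20 : s2.r 0 = n := by rw [breg 0 (by omega), areg 0 (by decide)]; exact h0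
  -- reading
  obtain ⟨s4, t4, e4, ht4, d41, dreg, darr⟩ := readC_spec (R := R) (cap := cap) s3
    (by rw [c3r, breg 20 (by omega)]; exact a20) (by rw [c3r]; exact r21) c32
  have r40 : s4.r 0 = n := by rw [dreg 0 (by decide), c3r]; exact r20
  have r41 : s4.r 1 = 0 := by rw [dreg 1 (by decide), c3r]; exact r21
  have k4 : ∀ j ∈ [4, 5], s4.a j = s.a j := by
    intro j hj
    rw [darr j (by rintro rfl; exact absurd hj (by decide)),
      c3a j (by rintro rfl; exact absurd hj (by decide)),
      barr j (by rintro rfl; exact absurd hj (by decide)),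
      aarr j (by rintro rfl; exact absurd hj (by decide))
        (by rintro rfl; exact absurd hj (by decide))]
  have hA := hgmax.1.toPI hG
  -- initialisation
  obtain ⟨s5, t5, e5, ht5, f42, f43, f45, f46, freg, farr⟩ := iniC_spec (R := R) (cap := cap) s4
    r40 r41
  -- first pass
  obtain ⟨s6, t6, e6, hV6, hN6, ht6, greg, garr⟩ := p1C_spec (R := R) (cap := cap) hA hG.irr s5
    (by rw [freg 0 (by decide)]; exact r40) (by rw [freg 1 (by decide)]; exact r41)
    (by intro v hv; rw [farr 41 (by decide)]; exact d41 v hv)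
    (PV.init (fun v hv => f42 v (by omega)) f45) (fun v hv => f42 v (by omega)) (f45 0 (by omega))
  -- second pass
  obtain ⟨s7, t7, e7, ht7, hV7, hall, hT7, h764, h765, hreg, harr⟩ := p2C_spec (R := R)
    (cap := cap) hA hG.irr s6
    (by rw [greg 0 (by decide), freg 0 (by decide)]; exact r40)
    (by rw [greg 1 (by decide), freg 1 (by decide)]; exact r41)
    (by intro v hv; rw [garr 41 (by decide), farr 41 (by decide)]; exact d41 v hv)
    hV6 hN6
    (by
      constructor
      · intro c hc
        rw [garr 46 (by decide), garr 45 (by decide), f45 c hc, f46 c hc]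
      · intro c hc hO
        rw [garr 45 (by decide), f45 c hc] at hO
        omega)
  have hcyc := hV7.cyc le_rfl hall
  have hP7 : Prg n A (s7.a 43) (s7.a 45) (s7.a 46) (s7.a 47) (s7.a 48) := by
    constructor
    · intro c hc hO
      obtain ⟨x1, _, x2, _⟩ := hT7.d c hc hO
      exact ⟨x1, x2⟩
    · intro c hc hO
      obtain ⟨_, _, _, x4⟩ := hT7.d c hc hO
      exact Or.inl ⟨by rw [hT7.eq c hc]; exact hO, x4⟩
    · intro c hc hT
      rw [← hT7.eq c hc]; exact hT
  have r70 : s7.r 0 = n := by
    rw [hreg 0 (by decide), greg 0 (by decide), freg 0 (by decide)]; exact r40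
  have r71 : s7.r 1 = 0 := by
    rw [hreg 1 (by decide), greg 1 (by decide), freg 1 (by decide)]; exact r41
  have k7 : ∀ j ∈ [4, 5], s7.a j = s.a j := by
    intro j hj
    rw [harr j (fun h => (by decide : ∀ x ∈ p2Arrs, x ∉ [4, 5]) j h hj),
      garr j (fun h => (by decide : ∀ x ∈ [42, 43, 44], x ∉ [4, 5]) j h hj),
      farr j (fun h => (by decide : ∀ x ∈ [42, 43, 45, 46], x ∉ [4, 5]) j h hj), k4 j hj]
  -- pairing
  obtain ⟨s8, t8, e8, ht8, hP8, hap, ireg, iarr⟩ := prC_spec (R := R) (cap := cap) s7 hG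
    (by rw [k7 4 (by decide), k7 5 (by decide)]; exact hcsr) r70 r71 h765 hcyc.le hP7
  rw [k7 4 (by decide)] at ht8
  have hcyc8 : Cyc n g (s8.a 42) (s8.a 43) (s8.a 44) (s8.a 45) := by
    rw [iarr 42 (by decide), iarr 43 (by decide), iarr 44 (by decide), iarr 45 (by decide)]
    exact hcyc
  -- final pass
  obtain ⟨s9, t9, e9, ht9, l40, lreg, larr⟩ := fmC_spec (R := R) (cap := cap) (n := n) (g := g) s8
    (by rw [ireg 0 (by decide)]; exact r70) (by rw [ireg 64 (by decide)]; exact h764)
    (by rw [ireg 65 (by decide)]; exact h765)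
    (by
      intro v hv
      rw [iarr 41 (by decide), harr 41 (by decide), garr 41 (by decide), farr 41 (by decide)]
      exact d41 v hv)
  refine ⟨s9, _, fm n g (s8.a 42) (s8.a 43) (s8.a 44) (s8.a 45) (s8.a 47) (s8.a 48), s8.a 43, g,
    s8.a 47, (Finset.range (n + 1)).filter (fun c => s8.a 46 c = 1),
    .seq e1 (.seq e2 (.seq e3 (.seq e4 (.seq e5 (.seq e6 (.seq e7 (.seq e8 e9))))))), ?_,
    ⟨?_, hgmax, ?_, ?_, ?_, ?_, ?_⟩, l40, ?_, ?_, ?_⟩
  · have hel : L'.encode.length = 2 * n + 2 + s1.a 10 (2 * n) := by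
      rw [L'.encode_length, hup2]
    rw [a2n] at hel
    omega
  · exact hcyc8.mat hA hG hP8
  · intro v hv hvv
    rcases hcyc8.subset hA hP8 v hv hvv with h | ⟨c, hc, h1, h2⟩
    · exact Or.inl h
    · exact Or.inr ⟨c, by rw [Finset.mem_filter, Finset.mem_range]; exact ⟨by omega, h1⟩, h2⟩
  · intro c hc
    rw [Finset.mem_filter, Finset.mem_range] at hc
    exact hP8.dsg c (by omega) (hP8.tO c (by omega) hc.2)
  · intro c hc
    rw [Finset.mem_filter, Finset.mem_range] at hc
    have hO := hP8.tO c (by omega) hc.2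
    rw [iarr 45 (by decide)] at hO
    obtain ⟨s0, k, hk, w1, w2, w3⟩ := hV7.walk c (by omega) hO
    rw [iarr 43 (by decide)]
    exact oddSet_of_walk (wf n g s0) hk (fun i hi => ⟨(w1 i hi).1, (w1 i hi).2.2⟩) w2 w3
  · intro u v huv hu hv
    rw [Finset.mem_filter] at hu hv
    exact hap u v huv hu.2 hv.2
  · intro c hc u hu v hv hCu hCv
    rw [Finset.mem_filter, Finset.mem_range] at hc
    exact hcyc8.conn hA hG (hP8.tO c (by omega) hc.2) hu hv hCu hCv
  · rw [lreg 0 (by decide), ireg 0 (by decide)]; exact r70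
  · rw [lreg 1 (by decide), ireg 1 (by decide)]; exact r71
  · intro j hj
    rw [larr j (by rintro rfl; exact absurd hj (by decide)),
      iarr j (fun h => (by decide : ∀ x ∈ [46, 47, 48], x ∉ [4, 5]) j h hj), k7 j hj]


theorem S1G.toX {n : ℕ} {G : SimpleGraph (Fin n)} {m C g D : ℕ → ℕ} {F : Finset ℕ}
    (h : S1G n (natAdj G) m C g D F) : S1X G m C g D F where
  mat := h.mat
  gmax := h.gmax
  sub := h.sub
  dC := h.dC
  odd := h.odd
  apart := h.apart
  conn := by
    intro c hc u v hu hv
    have h1 := h.conn c hc u u.2 v v.2 hu hv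
    have key : ∀ x y : ℕ, Relation.ReflTransGen (natAdj G) x y → ∀ hx : x < n,
        ∃ hy : y < n, G.Reachable ⟨x, hx⟩ ⟨y, hy⟩ := by
      intro x y hxy hx
      induction hxy with
      | refl => exact ⟨hx, SimpleGraph.Reachable.refl _⟩
      | tail _ hbc ih =>
        obtain ⟨hb, hr⟩ := ih
        obtain ⟨h2, h3, h4⟩ := hbc
        exact ⟨h3, hr.trans h4.reachable⟩
    exact (key u v h1 u.2).2

end Vale.Agent.P305
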