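import Vale.Agent.P305.Bdl.B2
import Vale.Agent.P305.H607.Defs

/-! The number of searches, component by component. -/

set_option autoImplicit false
set_option linter.all false

namespace Vale.Agent.P305

/-- What stage 1 achieves: `g` is a maximum matching of the double cover, `C` numbers the cycles,
`F` is the set of unpaired odd cycles, `D c` the exposed vertex of `c`. -/
structure S1X {n : ℕ} (G : SimpleGraph (Fin n)) (m C g D : ℕ → ℕ) (F : Finset ℕ) : Prop where
  mat : Mat (natAdj G) m
  gmax : IsMax (2 * n) (HD n (natAdj G)) g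
  sub : ∀ v < n, m v = v → g v = v ∨ ∃ c ∈ F, D c = v
  dC : ∀ c ∈ F, D c < n ∧ C (D c) = c
  odd : ∀ c ∈ F, OddSet (natAdj G) (fun v => v < n ∧ C v = c)
  apart : ∀ u v, natAdj G u v → C u ∈ F → C v ∈ F → C u = C v
  conn : ∀ c ∈ F, ∀ u v : Fin n, C u = c → C v = c → G.Reachable u v

section counting

variable {n : ℕ}

theorem exposed_card_fin (m : ℕ → ℕ) :
    (exposed n m).card = (Finset.univ.filter (fun v : Fin n => m v = v)).card := by
  have : exposed n m = (Finset.univ.filter (fun v : Fin n => m v = v)).map Fin.valEmbedding := by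
    ext v
    simp only [exposed, Finset.mem_filter, Finset.mem_range, Finset.mem_map, Finset.mem_univ,
      true_and, Fin.valEmbedding_apply]
    constructor
    · rintro ⟨h1, h2⟩
      exact ⟨⟨v, h1⟩, h2, rfl⟩
    · rintro ⟨w, h1, rfl⟩
      exact ⟨w.2, h1⟩
  rw [this, Finset.card_map]

/-- Optimality of a maximum matching of the double cover against assignments. -/
theorem assign_le {G : SimpleGraph (Fin n)} {g : ℕ → ℕ}
    (h : IsMax (2 * n) (HD n (natAdj G)) g) (s : Finset (Fin n)) (f : Fin n → Fin n)
    (hf : ∀ v ∈ s, G.Adj v (f v)) (hi : ∀ v ∈ s, ∀ w ∈ s, f v = f w → v = w) :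
    s.card + (Finset.univ.filter (fun v : Fin n => g v = v)).card ≤ n := by
  classical
  have hG := natAdj_gr G
  have hPI := h.1.toPI hG
  set g' : ℕ → ℕ := fun x =>
    if hx : x < n then (if (⟨x, hx⟩ : Fin n) ∈ s then n + f ⟨x, hx⟩ else x) else
    if hx : ∃ v : Fin n, v ∈ s ∧ n + (f v : ℕ) = x then (hx.choose : ℕ) else x with hg'
  have gin : ∀ v : Fin n, v ∈ s → g' v = n + f v := by
    intro v hv
    simp only [hg']
    rw [dif_pos v.2, if_pos hv]
  have gout : ∀ v : Fin n, v ∉ s → g' v = v := by
    intro v hv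
    simp only [hg']
    rw [dif_pos v.2, if_neg hv]
  have gr : ∀ v : Fin n, v ∈ s → g' (n + f v) = v := by
    intro v hv
    simp only [hg']
    have hex : ∃ w : Fin n, w ∈ s ∧ n + (f w : ℕ) = n + (f v : ℕ) := ⟨v, hv, rfl⟩
    rw [dif_neg (by omega), dif_pos hex]
    have h1 := hex.choose_spec
    exact congrArg Fin.val (hi _ h1.1 _ hv (Fin.ext (by omega)))
  have grn : ∀ x, ¬ x < n → (¬ ∃ v : Fin n, v ∈ s ∧ n + (f v : ℕ) = x) → g' x = x := by
    intro x h1 h2
    simp only [hg']
    rw [dif_neg h1, dif_neg h2]
  have hM : Mat (HD n (natAdj G)) g' := by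
    constructor
    · intro x
      by_cases hx : x < n
      · by_cases hs : (⟨x, hx⟩ : Fin n) ∈ s
        · have e := gin _ hs
          have e2 := gr _ hs
          simp only at e e2
          rw [e, e2]
        · have e := gout _ hs
          simp only at e
          rw [e, e]
      · by_cases hs : ∃ v : Fin n, v ∈ s ∧ n + (f v : ℕ) = x
        · obtain ⟨v, hv, rfl⟩ := hs
          rw [gr v hv, gin v hv]
        · rw [grn x hx hs, grn x hx hs]
    · intro x hne
      by_cases hx : x < n
      · by_cases hs : (⟨x, hx⟩ : Fin n) ∈ s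
        · have e := gin _ hs
          simp only at e
          rw [e]
          refine Or.inl ⟨hx, by omega, hx, ?_, ?_⟩
          · have := (f ⟨x, hx⟩).2; omega
          · have e3 : (⟨n + (f ⟨x, hx⟩ : ℕ) - n, by have := (f ⟨x, hx⟩).2; omega⟩ : Fin n) =
                f ⟨x, hx⟩ := Fin.ext (by simp)
            rw [e3]
            exact hf _ hs
        · have e := gout _ hs
          simp only at e
          exact absurd e hne
      · by_cases hs : ∃ v : Fin n, v ∈ s ∧ n + (f v : ℕ) = x
        · obtain ⟨v, hv, rfl⟩ := hs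
          rw [gr v hv]
          refine Or.inr ⟨by omega, v.2, v.2, by have := (f v).2; omega, ?_⟩
          have e3 : (⟨n + (f v : ℕ) - n, by have := (f v).2; omega⟩ : Fin n) = f v :=
            Fin.ext (by simp)
          rw [e3]
          exact hf _ hv
        · exact absurd (grn x hx hs) hne
  have h1 := h.2 g' hM
  have split : ∀ φ : ℕ → ℕ, (exposed (2 * n) φ).card =
      (Finset.univ.filter (fun v : Fin n => φ v = v)).card +
      (Finset.univ.filter (fun v : Fin n => φ (n + v) = n + v)).card := by
    intro φ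
    have e : exposed (2 * n) φ =
        (Finset.univ.filter (fun v : Fin n => φ v = v)).map Fin.valEmbedding ∪
        ((Finset.univ.filter (fun v : Fin n => φ (n + v) = n + v)).map Fin.valEmbedding).map
          (addLeftEmbedding n) := by
      ext x
      simp only [exposed, Finset.mem_filter, Finset.mem_range, Finset.mem_union, Finset.mem_map,
        addLeftEmbedding_apply, Finset.mem_univ, true_and, Fin.valEmbedding_apply]
      constructor
      · rintro ⟨h1, h2⟩
        by_cases hx : x < n
        · exact Or.inl ⟨⟨x, hx⟩, h2, rfl⟩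
        · refine Or.inr ⟨x - n, ⟨⟨x - n, by omega⟩, ?_, rfl⟩, by omega⟩
          simp only
          rw [show n + (x - n) = x by omega]; exact h2
      · rintro (⟨y, h1, rfl⟩ | ⟨z, ⟨y, h1, rfl⟩, rfl⟩)
        · exact ⟨by have := y.2; omega, h1⟩
        · exact ⟨by have := y.2; omega, h1⟩
    rw [e, Finset.card_union_of_disjoint, Finset.card_map, Finset.card_map, Finset.card_map]
    rw [Finset.disjoint_left]
    intro x hx hx'
    simp only [Finset.mem_filter, Finset.mem_map, addLeftEmbedding_apply, Finset.mem_univ,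
      true_and, Fin.valEmbedding_apply] at hx hx'
    obtain ⟨y, _, hy⟩ := hx
    obtain ⟨z, ⟨w, _, hw⟩, hz⟩ := hx'
    have := y.2
    omega
  -- left side of `g'`
  have hL : (Finset.univ.filter (fun v : Fin n => g' v = v)) = sᶜ := by
    ext v
    simp only [Finset.mem_filter, Finset.mem_univ, true_and, Finset.mem_compl]
    constructor
    · intro e hv
      rw [gin v hv] at e
      have := (f v).2
      have := v.2
      omega
    · exact gout v
  have hR : (Finset.univ.filter (fun v : Fin n => g' (n + v) = n + v)) = (s.image f)ᶜ := by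
    ext v
    simp only [Finset.mem_filter, Finset.mem_univ, true_and, Finset.mem_compl, Finset.mem_image,
      not_exists, not_and]
    constructor
    · intro e w hw hfw
      rw [← hfw, gr w hw] at e
      have := w.2
      omega
    · intro e
      apply grn _ (by omega)
      rintro ⟨w, hw, hfw⟩
      exact e w hw (Fin.ext (by omega))
  have hcs : (s.image f).card = s.card := by
    apply Finset.card_image_of_injOn
    intro v hv w hw e
    exact hi v hv w hw e
  -- both sides of `g` have the same number of exposed vertices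
  have hLR : (Finset.univ.filter (fun v : Fin n => g v ≠ v)).card =
      (Finset.univ.filter (fun v : Fin n => g (n + v) ≠ n + v)).card := by
    apply Finset.card_bij (fun v hv => ⟨g v - n, by
      rw [Finset.mem_filter] at hv
      rcases hPI.out v v.2 with h | ⟨w, hw, e, _⟩
      · exact absurd h hv.2
      · omega⟩)
    · intro v hv
      rw [Finset.mem_filter] at hv ⊢
      rcases hPI.out v v.2 with h | ⟨w, hw, e, _⟩
      · exact absurd h hv.2
      · refine ⟨Finset.mem_univ _, ?_⟩
        simp only
        rw [e, show n + w - n = w by omega, (hPI.arc v v.2 w hw).1 e]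
        have := v.2
        omega
    · intro v hv w hw e
      rw [Finset.mem_filter] at hv hw
      rcases hPI.out v v.2 with h | ⟨v', hv', e1, _⟩
      · exact absurd h hv.2
      · rcases hPI.out w w.2 with h | ⟨w', hw', e2, _⟩
        · exact absurd h hw.2
        · have e' := congrArg Fin.val e
          simp only at e'
          have : v' = w' := by omega
          subst this
          apply Fin.ext
          rw [← (hPI.arc v v.2 v' hv').1 e1, ← (hPI.arc w w.2 v' hw').1 e2]
    · intro w hw
      rw [Finset.mem_filter] at hw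
      rcases hPI.inn w w.2 with h | ⟨v, hv, e, _⟩
      · exact absurd h hw.2
      · have e2 := (hPI.arc v hv w w.2).2 e
        refine ⟨⟨v, hv⟩, ?_, Fin.ext (by simp only; rw [e2]; omega)⟩
        rw [Finset.mem_filter]
        refine ⟨Finset.mem_univ _, ?_⟩
        simp only
        omega
  have c1 := Finset.card_filter_add_card_filter_not (s := (Finset.univ : Finset (Fin n)))
    (fun v => g v = v)
  have c2 := Finset.card_filter_add_card_filter_not (s := (Finset.univ : Finset (Fin n)))
    (fun v => g (n + v) = n + v)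
  have c3 := Finset.card_compl_add_card s
  have c4 := Finset.card_compl_add_card (s.image f)
  rw [split g, split g', hL, hR] at h1
  rw [Finset.card_univ, Fintype.card_fin] at c1 c2
  rw [Fintype.card_fin] at c3 c4
  have hLR' : (Finset.univ.filter (fun v : Fin n => ¬ g v = v)).card =
      (Finset.univ.filter (fun v : Fin n => ¬ g (n + v) = n + v)).card := hLR
  omega

/-- Number of vertices of the component `K` with property `P`. -/
noncomputable def cnt (G : SimpleGraph (Fin n)) (K : G.ConnectedComponent) (P : Fin n → Prop) : ℕ :=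
  open Classical in
  (Finset.univ.filter (fun v : Fin n => G.connectedComponentMk v = K ∧ P v)).card

theorem cnt_eq (G : SimpleGraph (Fin n)) (K : G.ConnectedComponent) (P : Fin n → Prop)
    [DecidablePred (fun v : Fin n => G.connectedComponentMk v = K ∧ P v)] :
    cnt G K P = (Finset.univ.filter (fun v : Fin n => G.connectedComponentMk v = K ∧ P v)).card := by
  unfold cnt
  congr

theorem cnt_compl (G : SimpleGraph (Fin n)) (K : G.ConnectedComponent) (P : Fin n → Prop) :
    cnt G K P + cnt G K (fun v => ¬ P v) = cnt G K (fun _ => True) := by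
  classical
  rw [cnt_eq G K P, cnt_eq G K (fun v => ¬ P v), cnt_eq G K (fun _ => True),
    ← Finset.card_union_of_disjoint]
  · congr 1
    ext v
    simp only [Finset.mem_union, Finset.mem_filter, Finset.mem_univ, true_and]
    tauto
  · rw [Finset.disjoint_left]
    intro v h1 h2
    rw [Finset.mem_filter] at h1 h2
    exact h2.2.2 h1.2.2

theorem sum_cnt (G : SimpleGraph (Fin n)) (P : Fin n → Prop) [DecidablePred P]
    [Fintype G.ConnectedComponent] :
    (Finset.univ.filter P).card = ∑ K : G.ConnectedComponent, cnt G K P := by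
  classical
  rw [Finset.card_eq_sum_card_fiberwise (f := G.connectedComponentMk)
    (t := (Finset.univ : Finset G.ConnectedComponent)) (fun _ _ => by simp)]
  apply Finset.sum_congr rfl
  intro K _
  unfold cnt
  congr 1
  ext v
  simp only [Finset.mem_filter, Finset.mem_univ, true_and]
  tauto

/-- The optimality in a component. -/
theorem assign_le_cnt {G : SimpleGraph (Fin n)} {g : ℕ → ℕ}
    (h : IsMax (2 * n) (HD n (natAdj G)) g) (K : G.ConnectedComponent) (s : Finset (Fin n))
    (f : Fin n → Fin n) (hs : ∀ v ∈ s, G.connectedComponentMk v = K)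
    (hf : ∀ v ∈ s, G.Adj v (f v)) (hi : ∀ v ∈ s, ∀ w ∈ s, f v = f w → v = w) :
    s.card + cnt G K (fun v => g v = v) ≤ cnt G K (fun _ => True) := by
  classical
  have hG := natAdj_gr G
  have hPI := h.1.toPI hG
  have hgs : ∀ v : Fin n, g v ≠ v → ∃ w : Fin n, g v = n + w ∧ G.Adj v w ∧ g (n + w) = v := by
    intro v hv
    rcases hPI.out v v.2 with h | ⟨w, hw, e, h1, h2, h3⟩
    · exact absurd h hv
    · exact ⟨⟨w, hw⟩, e, h3, (hPI.arc v v.2 w hw).1 e⟩
  set g1 : Fin n → Fin n := fun v => if h : g v ≠ v then (hgs v h).choose else v with hg1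
  have g1s : ∀ v : Fin n, g v ≠ v → g v = n + g1 v ∧ G.Adj v (g1 v) ∧ g (n + g1 v) = v := by
    intro v hv
    simp only [hg1]
    rw [dif_pos hv]
    exact (hgs v hv).choose_spec
  set s' := s ∪ Finset.univ.filter (fun v : Fin n => G.connectedComponentMk v ≠ K ∧ g v ≠ v)
    with hs'
  set f' : Fin n → Fin n := fun v => if v ∈ s then f v else g1 v with hf'
  have key := assign_le h s' f' (by
      intro v hv
      simp only [hf']
      by_cases h1 : v ∈ s
      · rw [if_pos h1]; exact hf v h1
      · rw [if_neg h1]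
        rw [hs', Finset.mem_union, Finset.mem_filter] at hv
        rcases hv with hv | hv
        · exact absurd hv h1
        · exact (g1s v hv.2.2).2.1)
    (by
      have hcomp : ∀ v ∈ s', (v ∈ s ∧ G.connectedComponentMk (f' v) = K ∧ f' v = f v) ∨
          (v ∉ s ∧ G.connectedComponentMk (f' v) ≠ K ∧ f' v = g1 v ∧ g v ≠ v) := by
        intro v hv
        by_cases h1 : v ∈ s
        · left
          refine ⟨h1, ?_, by simp only [hf']; rw [if_pos h1]⟩
          simp only [hf']
          rw [if_pos h1, ← hs v h1]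
          exact (SimpleGraph.ConnectedComponent.sound (hf v h1).reachable).symm
        · right
          rw [hs', Finset.mem_union, Finset.mem_filter] at hv
          rcases hv with hv | hv
          · exact absurd hv h1
          · refine ⟨h1, ?_, by simp only [hf']; rw [if_neg h1], hv.2.2⟩
            simp only [hf']
            rw [if_neg h1]
            intro e
            apply hv.2.1
            rw [← e]
            exact SimpleGraph.ConnectedComponent.sound (g1s v hv.2.2).2.1.reachable
      intro v hv w hw e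
      rcases hcomp v hv with ⟨a1, a2, a3⟩ | ⟨a1, a2, a3, a4⟩ <;>
        rcases hcomp w hw with ⟨b1, b2, b3⟩ | ⟨b1, b2, b3, b4⟩
      · exact hi v a1 w b1 (by rw [← a3, ← b3, e])
      · exact absurd (e ▸ a2) b2
      · exact absurd (e ▸ b2) a2
      · have e2 : g1 v = g1 w := by rw [← a3, ← b3, e]
        have e3 := (g1s v a4).2.2
        have e4 := (g1s w b4).2.2
        rw [e2] at e3
        exact Fin.ext (e3.symm.trans e4))
  have hd : s'.card = s.card +
      (Finset.univ.filter (fun v : Fin n => G.connectedComponentMk v ≠ K ∧ g v ≠ v)).card := by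
    rw [hs', Finset.card_union_of_disjoint]
    rw [Finset.disjoint_left]
    intro v h1 h2
    rw [Finset.mem_filter] at h2
    exact h2.2.1 (hs v h1)
  -- all vertices
  have e1 : (Finset.univ.filter (fun v : Fin n => G.connectedComponentMk v ≠ K ∧ g v ≠ v)).card +
      (Finset.univ.filter (fun v : Fin n => g v = v)).card + cnt G K (fun _ => True) =
      n + cnt G K (fun v => g v = v) := by
    have c1 := cnt_compl G K (fun v => g v = v)
    have c2 := Finset.card_filter_add_card_filter_not (s := (Finset.univ : Finset (Fin n)))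
      (fun v => g v = v)
    rw [Finset.card_univ, Fintype.card_fin] at c2
    have c3 : (Finset.univ.filter (fun v : Fin n => ¬ g v = v)).card =
        (Finset.univ.filter (fun v : Fin n => G.connectedComponentMk v ≠ K ∧ g v ≠ v)).card +
          cnt G K (fun v => ¬ g v = v) := by
      rw [cnt_eq, ← Finset.card_union_of_disjoint]
      · congr 1
        ext v
        simp only [Finset.mem_union, Finset.mem_filter, Finset.mem_univ, true_and]
        tauto
      · rw [Finset.disjoint_left]
        intro v h1 h2
        rw [Finset.mem_filter] at h1 h2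
        exact h1.2.1 h2.2.1
    omega
  omega

/-- A matching in a component. -/
theorem mat_cnt {G : SimpleGraph (Fin n)} {m : ℕ → ℕ} (hm : Mat (natAdj G) m)
    (K : G.ConnectedComponent) : ∃ M : G.Subgraph, M.IsMatching ∧ M.verts ⊆ K.supp ∧
      M.verts.ncard = cnt G K (fun v => ¬ m v = v) ∧ M.verts.ncard = 2 * M.edgeSet.ncard := by
  classical
  have hG := natAdj_gr G
  set m' : ℕ → ℕ := fun x => if h : ∃ hx : x < n, G.connectedComponentMk ⟨x, hx⟩ = K then m x else x
    with hm'
  have hin : ∀ v : Fin n, G.connectedComponentMk v = K → m' v = m v := by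
    intro v hv
    simp only [hm']
    rw [dif_pos ⟨v.2, hv⟩]
  have hout : ∀ x, (¬ ∃ hx : x < n, G.connectedComponentMk ⟨x, hx⟩ = K) → m' x = x := by
    intro x hx
    simp only [hm']
    rw [dif_neg hx]
  have hM : Mat (natAdj G) m' := by
    constructor
    · intro x
      by_cases hx : ∃ hx : x < n, G.connectedComponentMk ⟨x, hx⟩ = K
      · obtain ⟨h1, h2⟩ := hx
        have e := hin ⟨x, h1⟩ h2
        simp only at e
        rw [e]
        by_cases hmx : m x = x
        · rw [hmx, e, hmx]
        · obtain ⟨a1, a2, a3⟩ := hm.adj x hmx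
          have h3 : G.connectedComponentMk ⟨m x, a2⟩ = K := by
            rw [← h2]
            exact (SimpleGraph.ConnectedComponent.sound a3.reachable).symm
          have e2 := hin ⟨m x, a2⟩ h3
          simp only at e2
          rw [e2, hm.inv]
      · rw [hout x hx, hout x hx]
    · intro x hne
      by_cases hx : ∃ hx : x < n, G.connectedComponentMk ⟨x, hx⟩ = K
      · obtain ⟨h1, h2⟩ := hx
        have e := hin ⟨x, h1⟩ h2
        simp only at e
        rw [e] at hne ⊢
        exact hm.adj x hne
      · exact absurd (hout x hx) hne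
  refine ⟨subOf G m' hM, subOf_matching hM, ?_, ?_, ncard_verts (subOf_matching hM)⟩
  · intro v hv
    have hv' : m' v ≠ v := hv
    by_contra hc
    apply hv'
    apply hout
    rintro ⟨_, h2⟩
    exact hc h2
  · show {v : Fin n | m' v ≠ v}.ncard = _
    unfold cnt
    rw [← Set.ncard_coe_finset]
    congr 1
    ext v
    simp only [Set.mem_ofPred_eq, Finset.coe_filter, Finset.mem_univ, true_and]
    constructor
    · intro hv
      have hK : G.connectedComponentMk v = K := by
        by_contra hc
        apply hv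
        apply hout
        rintro ⟨_, h2⟩
        exact hc h2
      exact ⟨hK, by rw [← hin v hK]; exact hv⟩
    · rintro ⟨h1, h2⟩
      rw [hin v h1]
      exact h2

theorem oddPackingIn_bdd (G : SimpleGraph (Fin n)) (X : Set (Fin n)) :
    BddAbove {k | ∃ S : Fin k → Set (Fin n), (∀ i, S i ⊆ X) ∧ IsOddPacking G k S} :=
  ⟨n, fun _ ⟨_, _, hS⟩ => hS.le⟩

theorem le_oddPackingIn {G : SimpleGraph (Fin n)} {X : Set (Fin n)} {k : ℕ}
    {S : Fin k → Set (Fin n)} (hX : ∀ i, S i ⊆ X) (h : IsOddPacking G k S) :
    k ≤ oddPackingIn G X :=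
  le_csSup (oddPackingIn_bdd G X) ⟨S, hX, h⟩

theorem ncard_le_n (X : Set (Fin n)) : X.ncard ≤ n := by
  have := Set.ncard_le_card X
  simpa using this

theorem matchedIn_bdd (G : SimpleGraph (Fin n)) (X : Set (Fin n)) :
    BddAbove {k | ∃ M : G.Subgraph, M.IsMatching ∧ M.verts ⊆ X ∧ M.verts.ncard = k} :=
  ⟨n, fun _ ⟨M, _, _, h⟩ => h ▸ ncard_le_n _⟩

theorem assignedIn_bdd (G : SimpleGraph (Fin n)) (X : Set (Fin n)) :
    BddAbove {k | ∃ (s : Set (Fin n)) (f : Fin n → Fin n), s ⊆ X ∧
      (∀ v ∈ s, f v ∈ X ∧ G.Adj v (f v)) ∧ Set.InjOn f s ∧ s.ncard = k} :=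
  ⟨n, fun _ ⟨s, _, _, _, _, h⟩ => h ▸ ncard_le_n _⟩

/-- The part of `S1X` in a component: exposed vertices. -/
theorem S1X.exp_le {G : SimpleGraph (Fin n)} {m C g D : ℕ → ℕ} {F : Finset ℕ}
    (h : S1X G m C g D F) (K : G.ConnectedComponent) :
    cnt G K (fun v => m v = v) ≤ cnt G K (fun v => g v = v) + oddPackingIn G K.supp := by
  classical
  set FK := F.filter (fun c => ∃ hc : D c < n, G.connectedComponentMk ⟨D c, hc⟩ = K) with hFK
  have hsub : (Finset.univ.filter (fun v : Fin n => G.connectedComponentMk v = K ∧ m v = v)).map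
      Fin.valEmbedding ⊆
      (Finset.univ.filter (fun v : Fin n => G.connectedComponentMk v = K ∧ g v = v)).map
      Fin.valEmbedding ∪ FK.image D := by
    intro x hx
    rw [Finset.mem_map] at hx
    obtain ⟨v, hv, rfl⟩ := hx
    rw [Finset.mem_filter] at hv
    rw [Finset.mem_union]
    rcases h.sub v v.2 hv.2.2 with h1 | ⟨c, hc, h1⟩
    · left
      rw [Finset.mem_map]
      exact ⟨v, by rw [Finset.mem_filter]; exact ⟨Finset.mem_univ _, hv.2.1, h1⟩, rfl⟩
    · right
      rw [Finset.mem_image]
      refine ⟨c, ?_, h1⟩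
      rw [hFK, Finset.mem_filter]
      refine ⟨hc, by rw [h1]; exact v.2, ?_⟩
      have : (⟨D c, by rw [h1]; exact v.2⟩ : Fin n) = v := Fin.ext h1
      rw [this]
      exact hv.2.1
  have hcard := (Finset.card_le_card hsub).trans (Finset.card_union_le _ _)
  rw [Finset.card_map, Finset.card_map] at hcard
  have him : (FK.image D).card ≤ FK.card := Finset.card_image_le
  have hp : FK.card ≤ oddPackingIn G K.supp := by
    obtain ⟨e⟩ : Nonempty (Fin FK.card ≃ FK) := ⟨FK.equivFin.symm⟩
    have hF : ∀ i, (e i : ℕ) ∈ F := fun i => (Finset.mem_filter.1 (e i).2).1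
    refine le_oddPackingIn (S := fun i => {v : Fin n | C v = (e i : ℕ)}) ?_ ⟨?_, ?_⟩
    · intro i v hv
      have hv' : C v = (e i : ℕ) := hv
      obtain ⟨hD, hK⟩ := (Finset.mem_filter.1 (e i).2).2
      have hDC := (h.dC _ (hF i)).2
      have hr := h.conn _ (hF i) v ⟨D (e i), hD⟩ hv' hDC
      show G.connectedComponentMk v = K
      rw [← hK]
      exact SimpleGraph.ConnectedComponent.sound hr
    · intro i hb
      apply h.odd (e i) (hF i)
      obtain ⟨col⟩ := hb
      refine ⟨fun v => if hv : v < n ∧ C v = (e i : ℕ) then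
        decide (col ⟨⟨v, hv.1⟩, hv.2⟩ = 0) else false, ?_⟩
      intro u v hu hv huv
      obtain ⟨hun, hvn, hadj⟩ := huv
      beta_reduce
      rw [dif_pos hu, dif_pos hv]
      have hne := col.valid (v := ⟨⟨u, hu.1⟩, hu.2⟩) (w := ⟨⟨v, hv.1⟩, hv.2⟩) (by
        simpa [SimpleGraph.comap_adj] using hadj)
      intro heq
      apply hne
      rw [decide_eq_decide] at heq
      generalize col ⟨⟨u, hu.1⟩, hu.2⟩ = a at *
      generalize col ⟨⟨v, hv.1⟩, hv.2⟩ = b at *
      revert a b
      decide
    · intro i j hij u hu v hv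
      have hu' : C u = (e i : ℕ) := hu
      have hv' : C v = (e j : ℕ) := hv
      have hne : (e i : ℕ) ≠ e j := fun h => hij (e.injective (Subtype.ext h))
      refine ⟨?_, ?_⟩
      · rintro rfl
        exact hne (hu'.symm.trans hv')
      · intro hadj
        have := h.apart u v ⟨u.2, v.2, by simpa using hadj⟩ (by rw [hu']; exact hF i)
          (by rw [hv']; exact hF j)
        exact hne (hu'.symm.trans (this.trans hv'))
  rw [cnt_eq, cnt_eq]
  omega

/-- Assignments in a component against `g`. -/
theorem assignedIn_le {G : SimpleGraph (Fin n)} {g : ℕ → ℕ}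
    (h : IsMax (2 * n) (HD n (natAdj G)) g) (K : G.ConnectedComponent) :
    assignedIn G K.supp + cnt G K (fun v => g v = v) ≤ cnt G K (fun _ => True) := by
  classical
  have hmem := Nat.sSup_mem (s := {k | ∃ (s : Set (Fin n)) (f : Fin n → Fin n), s ⊆ K.supp ∧
      (∀ v ∈ s, f v ∈ K.supp ∧ G.Adj v (f v)) ∧ Set.InjOn f s ∧ s.ncard = k})
    ⟨0, ∅, id, Set.empty_subset _, fun v hv => hv.elim, Set.injOn_empty _, Set.ncard_empty _⟩
    (assignedIn_bdd G K.supp)
  obtain ⟨s, f, h1, h2, h3, h4⟩ := hmem
  have key := assign_le_cnt h K s.toFinset f (fun v hv => h1 (Set.mem_toFinset.1 hv))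
    (fun v hv => (h2 v (Set.mem_toFinset.1 hv)).2)
    (fun v hv w hw e => h3 (Set.mem_toFinset.1 hv) (Set.mem_toFinset.1 hw) e)
  rw [← Set.ncard_eq_toFinset_card', h4] at key
  exact key

/-- `g` itself is an assignment. -/
theorem le_assignedIn {G : SimpleGraph (Fin n)} {g : ℕ → ℕ}
    (h : IsMax (2 * n) (HD n (natAdj G)) g) (K : G.ConnectedComponent) :
    cnt G K (fun _ => True) ≤ assignedIn G K.supp + cnt G K (fun v => g v = v) := by
  classical
  have hG := natAdj_gr G
  have hPI := h.1.toPI hG
  have hgs : ∀ v : Fin n, g v ≠ v → ∃ w : Fin n, g v = n + w ∧ G.Adj v w ∧ g (n + w) = v := by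
    intro v hv
    rcases hPI.out v v.2 with h | ⟨w, hw, e, h1, h2, h3⟩
    · exact absurd h hv
    · exact ⟨⟨w, hw⟩, e, h3, (hPI.arc v v.2 w hw).1 e⟩
  set g1 : Fin n → Fin n := fun v => if h : g v ≠ v then (hgs v h).choose else v with hg1
  have g1s : ∀ v : Fin n, g v ≠ v → g v = n + g1 v ∧ G.Adj v (g1 v) ∧ g (n + g1 v) = v := by
    intro v hv
    simp only [hg1]
    rw [dif_pos hv]
    exact (hgs v hv).choose_spec
  have hle : cnt G K (fun v => ¬ g v = v) ≤ assignedIn G K.supp := by
    refine le_csSup (assignedIn_bdd G K.supp)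
      ⟨{v : Fin n | G.connectedComponentMk v = K ∧ ¬ g v = v}, g1, fun v hv => hv.1, ?_, ?_, ?_⟩
    · rintro v ⟨h1, h2⟩
      refine ⟨?_, (g1s v h2).2.1⟩
      show G.connectedComponentMk (g1 v) = K
      rw [← h1]
      exact (SimpleGraph.ConnectedComponent.sound (g1s v h2).2.1.reachable).symm
    · rintro v ⟨_, hv⟩ w ⟨_, hw⟩ e
      have e3 := (g1s v hv).2.2
      have e4 := (g1s w hw).2.2
      rw [e] at e3
      exact Fin.ext (e3.symm.trans e4)
    · rw [cnt_eq, ← Set.ncard_coe_finset]
      congr 1
      ext v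
      simp
  have := cnt_compl G K (fun v => g v = v)
  omega

theorem matchedIn_ge {G : SimpleGraph (Fin n)} {m : ℕ → ℕ} (hm : Mat (natAdj G) m)
    (K : G.ConnectedComponent) : ∃ j, cnt G K (fun v => ¬ m v = v) = 2 * j ∧
      2 * j ≤ matchedIn G K.supp := by
  obtain ⟨M, h1, h2, h3, h4⟩ := mat_cnt hm K
  refine ⟨M.edgeSet.ncard, by rw [← h3, h4], ?_⟩
  exact le_csSup (matchedIn_bdd G K.supp) ⟨M, h1, h2, h4⟩

/-- The main estimate. -/
theorem S1X.gap {G : SimpleGraph (Fin n)} {m C g D : ℕ → ℕ} {F : Finset ℕ}
    (h : S1X G m C g D F) (m' : ℕ → ℕ) (hm' : Mat (natAdj G) m') :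
    (exposed n m).card ≤ (exposed n m').card + 2 * surplus G := by
  classical
  rw [exposed_card_fin, exposed_card_fin, sum_cnt G, sum_cnt G]
  unfold surplus
  rw [Finset.mul_sum]
  have hsum : ∀ K ∈ (Finset.univ : Finset G.ConnectedComponent),
      cnt G K (fun v => m v = v) ≤ cnt G K (fun v => m' v = v) +
        2 * ((oddPackingIn G K.supp + matchedIn G K.supp - assignedIn G K.supp) / 2) := by
    intro K _
    have e1 := h.exp_le K
    have e2 := assignedIn_le h.gmax K
    obtain ⟨j, hj, _⟩ := matchedIn_ge h.mat K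
    obtain ⟨j', hj', hj2⟩ := matchedIn_ge hm' K
    have c1 := cnt_compl G K (fun v => m v = v)
    have c2 := cnt_compl G K (fun v => m' v = v)
    omega
  have := Finset.sum_le_sum hsum
  rw [Finset.sum_add_distrib] at this
  convert this using 2

/-- The integrality gap is at most the odd packing number. -/
theorem S1X.gap_in {G : SimpleGraph (Fin n)} {m C g D : ℕ → ℕ} {F : Finset ℕ}
    (h : S1X G m C g D F) (K : G.ConnectedComponent) :
    assignedIn G K.supp ≤ matchedIn G K.supp + oddPackingIn G K.supp := by
  have e1 := h.exp_le K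
  have e2 := assignedIn_le h.gmax K
  obtain ⟨j, hj, hj2⟩ := matchedIn_ge h.mat K
  have c1 := cnt_compl G K (fun v => m v = v)
  omega

end counting

end Vale.Agent.P305
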